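import Mathlib

/-!
# P054 row R12 (CS): |S|^2 ≤ |f(S)| * #{(a, b) ∈ S^2 : f a = f b}

Paper proof.  With r k = #{a ∈ S : f a = k}: |S| = ∑ k ∈ S.image f, r k
(Finset.card_eq_sum_card_image), (∑ k, r k)^2 ≤ |S.image f| * ∑ k, (r k)^2
(sq_sum_le_card_mul_sum_sq), and ∑ k ∈ S.image f, (r k)^2 is the card of the pairs with
equal values (fibre the pair set over f t.1).
-/

namespace Vale.Agent.H15.P054

theorem card_sq_le_image_mul_energy {α β : Type*} [DecidableEq α] [DecidableEq β]
    (S : Finset α) (f : α → β) :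
    S.card ^ 2 ≤ (S.image f).card * ((S ×ˢ S).filter (fun t => f t.1 = f t.2)).card := by
  classical
  -- the pair set, fibred over the common value
  have hpairs : ((S ×ˢ S).filter (fun t => f t.1 = f t.2)).card
      = ∑ k ∈ S.image f, ((S.filter (fun a => f a = k)).card) ^ 2 := by
    have hmaps : ∀ t ∈ (S ×ˢ S).filter (fun t => f t.1 = f t.2), f t.1 ∈ S.image f := by
      intro t ht
      rw [Finset.mem_filter, Finset.mem_product] at ht
      exact Finset.mem_image_of_mem f ht.1.1
    rw [Finset.card_eq_sum_card_fiberwise hmaps]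
    refine Finset.sum_congr rfl fun k _ => ?_
    have hset : ((S ×ˢ S).filter (fun t => f t.1 = f t.2)).filter (fun t => f t.1 = k)
        = (S.filter (fun a => f a = k)) ×ˢ (S.filter (fun a => f a = k)) := by
      ext t
      simp only [Finset.mem_filter, Finset.mem_product]
      constructor
      · rintro ⟨⟨⟨h1, h2⟩, h3⟩, h4⟩
        exact ⟨⟨h1, h4⟩, ⟨h2, h3 ▸ h4⟩⟩
      · rintro ⟨⟨h1, h4⟩, ⟨h2, h5⟩⟩
        exact ⟨⟨⟨h1, h2⟩, h4.trans h5.symm⟩, h4⟩
    rw [hset, Finset.card_product, sq]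
  have hcard : S.card = ∑ k ∈ S.image f, (S.filter (fun a => f a = k)).card :=
    Finset.card_eq_sum_card_image f S
  rw [hpairs]
  calc S.card ^ 2 = (∑ k ∈ S.image f, (S.filter (fun a => f a = k)).card) ^ 2 := by
        rw [← hcard]
    _ ≤ (S.image f).card * ∑ k ∈ S.image f, ((S.filter (fun a => f a = k)).card) ^ 2 :=
        sq_sum_le_card_mul_sum_sq

end Vale.Agent.H15.P054
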