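import Mathlib

/-!
# P054 helper definitions: lattice-point counts for a . b = s

These definitions are used only inside proofs; the hand-in statement uses Mathlib notions only.
-/

namespace Vale.Agent.H15.P054

/-- The integers of absolute value at most M. -/
noncomputable def box (M : ℕ) : Finset ℤ := Finset.Icc (-(M : ℤ)) (M : ℤ)

/-- The solutions (x, y, z) in the box of p * x + q * y + r * z = s. -/
noncomputable def fib (M : ℕ) (p q r s : ℤ) : Finset (ℤ × ℤ × ℤ) :=
  (box M ×ˢ box M ×ˢ box M).filter (fun t => p * t.1 + q * t.2.1 + r * t.2.2 = s)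

/-- Pairs (a, b) of triples in the box with a . b = s whose third coefficient a_3 is
nonzero and is the largest coordinate of a in absolute value. -/
noncomputable def wset (M : ℕ) (s : ℤ) : Finset ((ℤ × ℤ × ℤ) × (ℤ × ℤ × ℤ)) :=
  ((box M ×ˢ box M ×ˢ box M) ×ˢ (box M ×ˢ box M ×ˢ box M)).filter
    (fun t => t.1.2.2 ≠ 0 ∧ |t.1.1| ≤ |t.1.2.2| ∧ |t.1.2.1| ≤ |t.1.2.2| ∧
      t.1.1 * t.2.1 + t.1.2.1 * t.2.2.1 + t.1.2.2 * t.2.2.2 = s)

/-- Pairs (a, b) of triples in the box with a . b = s. -/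
noncomputable def sol3 (M : ℕ) (s : ℤ) : Finset ((ℤ × ℤ × ℤ) × (ℤ × ℤ × ℤ)) :=
  ((box M ×ˢ box M ×ˢ box M) ×ˢ (box M ×ˢ box M ×ˢ box M)).filter
    (fun t => t.1.1 * t.2.1 + t.1.2.1 * t.2.2.1 + t.1.2.2 * t.2.2.2 = s)

/-- The integer vectors of length d with all coordinates in the box. -/
noncomputable def cube (d M : ℕ) : Finset (Fin d → ℤ) := Fintype.piFinset (fun _ => box M)

/-- Pairs (a, b) of vectors in the cube with a . b = s. -/
noncomputable def solD (d M : ℕ) (s : ℤ) : Finset ((Fin d → ℤ) × (Fin d → ℤ)) :=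
  (cube d M ×ˢ cube d M).filter (fun t => ∑ i, t.1 i * t.2 i = s)

end Vale.Agent.H15.P054
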