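import Mathlib

/-!
# P054 row R14 (DENSE): from the general inequality to the bound c * n^(2/d)

Paper proof.  n ≥ 2 gives (n - 1)^2 ≥ n^2 / 4 ≥ δ^2 N^(2d) / 4.  With hA and
N^(2d) = N^(2d-2) * N^2, N ≥ 1: D ≥ δ^2 N^2 / (4 C).  And n ≤ (N+1)^d ≤ (2N)^d gives
n^(2/d) ≤ ((2N)^d)^(2/d) = (2N)^2 = 4 N^2 (Real.rpow_le_rpow, Real.rpow_natCast,
Real.rpow_mul).  So δ^2/(16 C) * n^(2/d) ≤ δ^2 N^2/(4 C) ≤ D.
-/

namespace Vale.Agent.H15.P054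

/-- the power `n ^ (2 / d)` is at most `4 N ^ 2` when `n ≤ (N + 1) ^ d` and `N ≥ 1` -/
theorem dense_rpow (d N n : ℕ) (hd : 3 ≤ d) (hN : 1 ≤ N) (hnN : n ≤ (N + 1) ^ d) :
    (n : ℝ) ^ ((2 : ℝ) / (d : ℝ)) ≤ 4 * (N : ℝ) ^ 2 := by
  have hNr : (1 : ℝ) ≤ (N : ℝ) := by exact_mod_cast hN
  have hdr : (0 : ℝ) < (d : ℝ) := by
    have h0 : 0 < d := by omega
    exact_mod_cast h0
  have h2N : (n : ℝ) ≤ (2 * (N : ℝ)) ^ d := by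
    have h1 : ((n : ℕ) : ℝ) ≤ (((N + 1) ^ d : ℕ) : ℝ) := by exact_mod_cast hnN
    have h2 : (((N + 1) ^ d : ℕ) : ℝ) = ((N : ℝ) + 1) ^ d := by push_cast; ring
    rw [h2] at h1
    refine h1.trans ?_
    apply pow_le_pow_left₀ (by positivity)
    linarith
  have h3 : (n : ℝ) ^ ((2 : ℝ) / (d : ℝ)) ≤ ((2 * (N : ℝ)) ^ d) ^ ((2 : ℝ) / (d : ℝ)) :=
    Real.rpow_le_rpow (by positivity) h2N (by positivity)
  have h4 : ((2 * (N : ℝ)) ^ d) ^ ((2 : ℝ) / (d : ℝ)) = 4 * (N : ℝ) ^ 2 := by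
    rw [← Real.rpow_natCast (2 * (N : ℝ)) d, ← Real.rpow_mul (by positivity)]
    have h5 : (d : ℝ) * ((2 : ℝ) / (d : ℝ)) = 2 := by field_simp
    rw [h5, Real.rpow_two]
    ring
  rw [h4] at h3
  exact h3

theorem dense_bound (d N n : ℕ) (hd : 3 ≤ d) (hN : 1 ≤ N) (C D δ : ℝ) (hC : 0 < C)
    (hδ : 0 < δ) (hn : 2 ≤ n) (hdense : δ * (N : ℝ) ^ d ≤ (n : ℝ)) (hnN : n ≤ (N + 1) ^ d)
    (hA : ((n : ℝ) - 1) ^ 2 ≤ C * (N : ℝ) ^ (2 * d - 2) * D) :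
    δ ^ 2 / (16 * C) * (n : ℝ) ^ ((2 : ℝ) / (d : ℝ)) ≤ D := by
  have hNr : (1 : ℝ) ≤ (N : ℝ) := by exact_mod_cast hN
  have hnr : (2 : ℝ) ≤ (n : ℝ) := by exact_mod_cast hn
  have hpow := dense_rpow d N n hd hN hnN
  have hNpos : (0 : ℝ) < (N : ℝ) ^ (2 * d - 2) := by positivity
  have hsplit : (N : ℝ) ^ (2 * d) = (N : ℝ) ^ (2 * d - 2) * (N : ℝ) ^ 2 := by
    rw [← pow_add]
    congr 1
    omega
  have h5 : δ ^ 2 * (N : ℝ) ^ (2 * d) / 4 ≤ ((n : ℝ) - 1) ^ 2 := by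
    have h6 : δ * (N : ℝ) ^ d / 2 ≤ (n : ℝ) - 1 := by linarith
    have h7 : 0 ≤ δ * (N : ℝ) ^ d / 2 := by positivity
    have h8 := pow_le_pow_left₀ h7 h6 2
    calc δ ^ 2 * (N : ℝ) ^ (2 * d) / 4 = (δ * (N : ℝ) ^ d / 2) ^ 2 := by
          rw [pow_mul']
          ring
      _ ≤ ((n : ℝ) - 1) ^ 2 := h8
  have h9 : δ ^ 2 * (N : ℝ) ^ 2 / 4 ≤ C * D := by
    have h10 : δ ^ 2 * ((N : ℝ) ^ (2 * d - 2) * (N : ℝ) ^ 2) / 4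
        ≤ C * (N : ℝ) ^ (2 * d - 2) * D := by
      rw [← hsplit]
      exact h5.trans hA
    have e1 : (N : ℝ) ^ (2 * d - 2) * (δ ^ 2 * (N : ℝ) ^ 2 / 4)
        = δ ^ 2 * ((N : ℝ) ^ (2 * d - 2) * (N : ℝ) ^ 2) / 4 := by ring
    have e2 : (N : ℝ) ^ (2 * d - 2) * (C * D) = C * (N : ℝ) ^ (2 * d - 2) * D := by ring
    have h11 : (N : ℝ) ^ (2 * d - 2) * (δ ^ 2 * (N : ℝ) ^ 2 / 4)
        ≤ (N : ℝ) ^ (2 * d - 2) * (C * D) := by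
      rw [e1, e2]
      exact h10
    exact le_of_mul_le_mul_left h11 hNpos
  calc δ ^ 2 / (16 * C) * (n : ℝ) ^ ((2 : ℝ) / (d : ℝ))
      ≤ δ ^ 2 / (16 * C) * (4 * (N : ℝ) ^ 2) :=
        mul_le_mul_of_nonneg_left hpow (by positivity)
    _ = (δ ^ 2 * (N : ℝ) ^ 2 / 4) / C := by
        field_simp
        ring
    _ ≤ D := by
        rw [div_le_iff₀ hC]
        linarith

end Vale.Agent.H15.P054
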