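import Vale.Agent.H15.P054.Defs

/-!
# P054 row R11 (ENERGY): pairs of vectors of equal norm inject into solutions of a . b = 0

Paper proof.  The map (v, v') ↦ (v - v', v + v') is injective (v = ((v+v') + (v-v'))/2;
in ℤ: from v - v' = w - w' and v + v' = w + w' get 2 v = 2 w), its coordinates lie in
[-2N, 2N], and ∑ (v i - v' i) * (v i + v' i) = ∑ v i ^ 2 - ∑ v' i ^ 2 = 0.
-/

namespace Vale.Agent.H15.P054

theorem energy_le (d N : ℕ) (S : Finset (Fin d → ℤ)) (hS : S ⊆ cube d N) :
    ((S ×ˢ S).filter (fun t => ∑ i, t.1 i ^ 2 = ∑ i, t.2 i ^ 2)).card ≤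
      (solD d (2 * N) 0).card := by
  classical
  have hbox : ∀ v ∈ S, ∀ i, -(N : ℤ) ≤ v i ∧ v i ≤ (N : ℤ) := by
    intro v hv i
    have h1 := hS hv
    unfold cube at h1
    rw [Fintype.mem_piFinset] at h1
    have h2 := h1 i
    unfold box at h2
    rw [Finset.mem_Icc] at h2
    exact h2
  apply Finset.card_le_card_of_injOn (fun t => (t.1 - t.2, t.1 + t.2))
  · intro t ht
    have ht' : t ∈ (S ×ˢ S).filter (fun t => ∑ i, t.1 i ^ 2 = ∑ i, t.2 i ^ 2) := ht
    rw [Finset.mem_filter, Finset.mem_product] at ht'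
    obtain ⟨⟨h1, h2⟩, h3⟩ := ht'
    have hgoal : (t.1 - t.2, t.1 + t.2) ∈ solD d (2 * N) 0 := by
      unfold solD
      rw [Finset.mem_filter, Finset.mem_product]
      refine ⟨⟨?_, ?_⟩, ?_⟩
      · unfold cube
        rw [Fintype.mem_piFinset]
        intro i
        unfold box
        rw [Finset.mem_Icc]
        have ha := hbox t.1 h1 i
        have hb := hbox t.2 h2 i
        simp only [Pi.sub_apply]
        push_cast
        constructor <;> linarith [ha.1, ha.2, hb.1, hb.2]
      · unfold cube
        rw [Fintype.mem_piFinset]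
        intro i
        unfold box
        rw [Finset.mem_Icc]
        have ha := hbox t.1 h1 i
        have hb := hbox t.2 h2 i
        simp only [Pi.add_apply]
        push_cast
        constructor <;> linarith [ha.1, ha.2, hb.1, hb.2]
      · simp only [Pi.sub_apply, Pi.add_apply]
        have hsq : ∀ i, (t.1 i - t.2 i) * (t.1 i + t.2 i) = t.1 i ^ 2 - t.2 i ^ 2 :=
          fun i => by ring
        simp_rw [hsq]
        rw [Finset.sum_sub_distrib, h3, sub_self]
    exact hgoal
  · intro t _ t' _ heq
    simp only [Prod.mk.injEq] at heq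
    obtain ⟨e1, e2⟩ := heq
    apply Prod.ext
    · funext i
      have a1 := congr_fun e1 i
      have a2 := congr_fun e2 i
      simp only [Pi.sub_apply, Pi.add_apply] at a1 a2
      omega
    · funext i
      have a1 := congr_fun e1 i
      have a2 := congr_fun e2 i
      simp only [Pi.sub_apply, Pi.add_apply] at a1 a2
      omega

end Vale.Agent.H15.P054
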