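import Vale.Agent.H15.P054.Residue

/-!
# P054 row R2 (FIBRE): solutions of one linear equation p x + q y + r z = s in the box

Paper proof.  Let h = gcd (q, r), g = gcd (p, h), u = h / g, w = |r| / h, so
|r| = g * u * w.  The third coordinate z is determined by (x, y) (as r ≠ 0), so the card
is at most the number of (x, y) in the box with r ∣ s - p x - q y.
* If x is admissible (some y works) then h ∣ s - p x.  If x0 is one admissible value
  then h ∣ p (x - x0), and gcd (p, h) = g gives u ∣ x - x0: the admissible x lie in ONE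
  residue class mod u, so there are at most 2M / u + 1 of them (box_residue_card_le).
* For a fixed x: if y0 is one admissible value then r ∣ q (y - y0), hence w ∣ y - y0:
  at most 2M / w + 1 values of y.
So card ≤ (2M/u + 1) (2M/w + 1), and u w card ≤ (2M + u)(2M + w); multiply by g:
|r| card ≤ 4 M^2 g + 2M (g u + g w) + |r| ≤ 4 M^2 g + 4 M |r| + |r| since g u = h ≤ |r|
and g w ≤ |r|.
-/

namespace Vale.Agent.H15.P054

/-- If b divides a * t then |b| / gcd (a, b) divides t. -/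
theorem fibre_dvd (a b t : ℤ) (hb : b ≠ 0) (h : b ∣ a * t) :
    ((b.natAbs / Nat.gcd a.natAbs b.natAbs : ℕ) : ℤ) ∣ t := by
  have hG : 0 < Int.gcd a b := Int.gcd_pos_of_ne_zero_right a hb
  obtain ⟨a', b', hc, ha, hb'⟩ := Int.exists_gcd_one hG
  rw [show Nat.gcd a.natAbs b.natAbs = Int.gcd a b from rfl]
  generalize Int.gcd a b = G at hG ha hb' ⊢
  subst ha hb'
  have h1 : (b' * (G : ℤ)).natAbs / G = b'.natAbs := by
    rw [Int.natAbs_mul, Int.natAbs_natCast, Nat.mul_div_cancel _ hG]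
  rw [h1, Int.natAbs_dvd]
  have hG0 : (G : ℤ) ≠ 0 := by exact_mod_cast hG.ne'
  have h2 : b' * (G : ℤ) ∣ (a' * t) * (G : ℤ) := by
    have e : a' * (G : ℤ) * t = (a' * t) * (G : ℤ) := by ring
    rw [← e]
    exact h
  have h3 : b' ∣ a' * t := (mul_dvd_mul_iff_right hG0).mp h2
  exact Int.dvd_of_dvd_mul_right_of_gcd_one h3 (by rw [Int.gcd_comm]; exact hc)

/-- The arithmetic at the end of the proof. -/
theorem fibre_arith (M g u w c : ℕ) (hu : 1 ≤ u) (hw : 1 ≤ w)
    (hc : c ≤ (2 * M / w + 1) * (2 * M / u + 1)) :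
    g * u * w * c ≤ 4 * M ^ 2 * g + (4 * M + 1) * (g * u * w) := by
  have h1 : u * (2 * M / u + 1) ≤ 2 * M + u := by
    have h0 := Nat.mul_div_le (2 * M) u
    calc u * (2 * M / u + 1) = u * (2 * M / u) + u := by ring
      _ ≤ 2 * M + u := Nat.add_le_add_right h0 u
  have h2 : w * (2 * M / w + 1) ≤ 2 * M + w := by
    have h0 := Nat.mul_div_le (2 * M) w
    calc w * (2 * M / w + 1) = w * (2 * M / w) + w := by ring
      _ ≤ 2 * M + w := Nat.add_le_add_right h0 w
  have h3 : g * u * w * c ≤ g * ((2 * M + u) * (2 * M + w)) := by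
    calc g * u * w * c ≤ g * u * w * ((2 * M / w + 1) * (2 * M / u + 1)) :=
          Nat.mul_le_mul_left _ hc
      _ = g * ((u * (2 * M / u + 1)) * (w * (2 * M / w + 1))) := by ring
      _ ≤ g * ((2 * M + u) * (2 * M + w)) :=
          Nat.mul_le_mul_left _ (Nat.mul_le_mul h1 h2)
  have h4 : g * u ≤ g * u * w := Nat.le_mul_of_pos_right _ hw
  have h5 : g * w ≤ g * u * w := by
    calc g * w = g * 1 * w := by ring
      _ ≤ g * u * w := Nat.mul_le_mul_right _ (Nat.mul_le_mul_left _ hu)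
  have h6 := Nat.mul_le_mul_left (2 * M) h4
  have h7 := Nat.mul_le_mul_left (2 * M) h5
  calc g * u * w * c ≤ g * ((2 * M + u) * (2 * M + w)) := h3
    _ = 4 * M ^ 2 * g + 2 * M * (g * u) + 2 * M * (g * w) + g * u * w := by ring
    _ ≤ 4 * M ^ 2 * g + 2 * M * (g * u * w) + 2 * M * (g * u * w) + g * u * w :=
        Nat.add_le_add_right (Nat.add_le_add (Nat.add_le_add_left h6 _) h7) _
    _ = 4 * M ^ 2 * g + (4 * M + 1) * (g * u * w) := by ring

/-- The number of solutions is at most the product of two residue-class counts. -/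
theorem fibre_card (M : ℕ) (p q r s : ℤ) (hr : r ≠ 0) :
    (fib M p q r s).card ≤ (2 * M / (r.natAbs / Nat.gcd q.natAbs r.natAbs) + 1) *
      (2 * M / (Nat.gcd q.natAbs r.natAbs /
        Nat.gcd p.natAbs (Nat.gcd q.natAbs r.natAbs)) + 1) := by
  classical
  have hRpos : 0 < r.natAbs := Int.natAbs_pos.mpr hr
  have hhpos : 0 < Nat.gcd q.natAbs r.natAbs := Nat.gcd_pos_of_pos_right _ hRpos
  have hgpos : 0 < Nat.gcd p.natAbs (Nat.gcd q.natAbs r.natAbs) :=
    Nat.gcd_pos_of_pos_right _ hhpos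
  have hu : 1 ≤ Nat.gcd q.natAbs r.natAbs / Nat.gcd p.natAbs (Nat.gcd q.natAbs r.natAbs) :=
    Nat.div_pos (Nat.le_of_dvd hhpos (Nat.gcd_dvd_right _ _)) hgpos
  have hw : 1 ≤ r.natAbs / Nat.gcd q.natAbs r.natAbs :=
    Nat.div_pos (Nat.le_of_dvd hRpos (Nat.gcd_dvd_right _ _)) hhpos
  obtain ⟨P, hPdef⟩ : ∃ P : Finset (ℤ × ℤ),
      P = (box M ×ˢ box M).filter (fun t => r ∣ s - p * t.1 - q * t.2) := ⟨_, rfl⟩
  have hPmem : ∀ t : ℤ × ℤ, t ∈ P ↔ (t.1 ∈ box M ∧ t.2 ∈ box M) ∧ r ∣ s - p * t.1 - q * t.2 := by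
    intro t
    rw [hPdef, Finset.mem_filter, Finset.mem_product]
  have h1 : (fib M p q r s).card ≤ P.card := by
    refine Finset.card_le_card_of_injOn (fun t => (t.1, t.2.1)) ?_ ?_
    · intro t ht
      have ht1 : t ∈ fib M p q r s := ht
      simp only [fib, Finset.mem_filter, Finset.mem_product] at ht1
      show (t.1, t.2.1) ∈ P
      rw [hPmem]
      refine ⟨⟨ht1.1.1, ht1.1.2.1⟩, ⟨t.2.2, ?_⟩⟩
      show s - p * t.1 - q * t.2.1 = r * t.2.2
      linarith [ht1.2]
    · intro t ht t' ht' heq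
      have ht1 : t ∈ fib M p q r s := ht
      have ht2 : t' ∈ fib M p q r s := ht'
      simp only [fib, Finset.mem_filter, Finset.mem_product] at ht1 ht2
      simp only [Prod.mk.injEq] at heq
      have hz : r * t.2.2 = r * t'.2.2 := by
        have e1 := ht1.2
        have e2 := ht2.2
        rw [heq.1, heq.2] at e1
        linarith
      have hz' : t.2.2 = t'.2.2 := mul_left_cancel₀ hr hz
      exact Prod.ext heq.1 (Prod.ext heq.2 hz')
  rcases Finset.eq_empty_or_nonempty P with hP | ⟨t0, ht0⟩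
  · have h0 : (fib M p q r s).card = 0 := by
      rw [hP, Finset.card_empty] at h1
      exact Nat.le_zero.mp h1
    rw [h0]
    exact Nat.zero_le _
  have ht0' := (hPmem t0).mp ht0
  have hhr : ((Nat.gcd q.natAbs r.natAbs : ℕ) : ℤ) ∣ r :=
    Int.natCast_dvd.mpr (Nat.gcd_dvd_right _ _)
  have hhq : ((Nat.gcd q.natAbs r.natAbs : ℕ) : ℤ) ∣ q :=
    Int.natCast_dvd.mpr (Nat.gcd_dvd_left _ _)
  have h2 : (P.image Prod.fst).card ≤ 2 * M / (Nat.gcd q.natAbs r.natAbs /
      Nat.gcd p.natAbs (Nat.gcd q.natAbs r.natAbs)) + 1 := by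
    have hsub : P.image Prod.fst ⊆ (box M).filter (fun x =>
        ((Nat.gcd q.natAbs r.natAbs / Nat.gcd p.natAbs (Nat.gcd q.natAbs r.natAbs) : ℕ) : ℤ)
          ∣ x - t0.1) := by
      intro x hx
      obtain ⟨t, ht, rfl⟩ := Finset.mem_image.mp hx
      have ht' := (hPmem t).mp ht
      rw [Finset.mem_filter]
      refine ⟨ht'.1.1, ?_⟩
      have e1 : ((Nat.gcd q.natAbs r.natAbs : ℕ) : ℤ) ∣ s - p * t.1 - q * t.2 :=
        dvd_trans hhr ht'.2
      have e2 : ((Nat.gcd q.natAbs r.natAbs : ℕ) : ℤ) ∣ s - p * t0.1 - q * t0.2 :=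
        dvd_trans hhr ht0'.2
      have e3 : ((Nat.gcd q.natAbs r.natAbs : ℕ) : ℤ) ∣ p * (t.1 - t0.1) := by
        have e : p * (t.1 - t0.1) = (s - p * t0.1 - q * t0.2) + q * t0.2
            - ((s - p * t.1 - q * t.2) + q * t.2) := by ring
        rw [e]
        exact dvd_sub (dvd_add e2 (Dvd.dvd.mul_right hhq _))
          (dvd_add e1 (Dvd.dvd.mul_right hhq _))
      have e4 := fibre_dvd p ((Nat.gcd q.natAbs r.natAbs : ℕ) : ℤ) (t.1 - t0.1)
        (by exact_mod_cast hhpos.ne') e3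
      simpa only [Int.natAbs_natCast] using e4
    exact le_trans (Finset.card_le_card hsub) (box_residue_card_le M _ hu t0.1)
  have h3 : ∀ a ∈ P.image Prod.fst, (P.filter (fun t => t.1 = a)).card ≤
      2 * M / (r.natAbs / Nat.gcd q.natAbs r.natAbs) + 1 := by
    intro a ha
    obtain ⟨t1, ht1, rfl⟩ := Finset.mem_image.mp ha
    have ht1' := (hPmem t1).mp ht1
    have hle : (P.filter (fun t => t.1 = t1.1)).card ≤ ((box M).filter (fun x =>
        ((r.natAbs / Nat.gcd q.natAbs r.natAbs : ℕ) : ℤ) ∣ x - t1.2)).card := by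
      refine Finset.card_le_card_of_injOn Prod.snd ?_ ?_
      · intro t ht
        have hta : t ∈ P.filter (fun t => t.1 = t1.1) := ht
        rw [Finset.mem_filter] at hta
        have htb := (hPmem t).mp hta.1
        show t.2 ∈ (box M).filter (fun x =>
          ((r.natAbs / Nat.gcd q.natAbs r.natAbs : ℕ) : ℤ) ∣ x - t1.2)
        rw [Finset.mem_filter]
        refine ⟨htb.1.2, ?_⟩
        have e3 : r ∣ q * (t.2 - t1.2) := by
          have e : q * (t.2 - t1.2) = (s - p * t1.1 - q * t1.2) - (s - p * t.1 - q * t.2) := by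
            rw [hta.2]
            ring
          rw [e]
          exact dvd_sub ht1'.2 htb.2
        exact fibre_dvd q r (t.2 - t1.2) hr e3
      · intro t ht t' ht' heq
        have a1 : t ∈ P.filter (fun t => t.1 = t1.1) := ht
        have a2 : t' ∈ P.filter (fun t => t.1 = t1.1) := ht'
        rw [Finset.mem_filter] at a1 a2
        exact Prod.ext (a1.2.trans a2.2.symm) heq
    exact le_trans hle (box_residue_card_le M _ hw t1.2)
  have h4 := Finset.card_le_mul_card_image (f := Prod.fst) P _ h3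
  calc (fib M p q r s).card ≤ P.card := h1
    _ ≤ (2 * M / (r.natAbs / Nat.gcd q.natAbs r.natAbs) + 1) * (P.image Prod.fst).card := h4
    _ ≤ (2 * M / (r.natAbs / Nat.gcd q.natAbs r.natAbs) + 1) *
      (2 * M / (Nat.gcd q.natAbs r.natAbs /
        Nat.gcd p.natAbs (Nat.gcd q.natAbs r.natAbs)) + 1) := Nat.mul_le_mul_left _ h2

theorem fib_card_le (M : ℕ) (p q r s : ℤ) (hr : r ≠ 0) :
    r.natAbs * (fib M p q r s).card ≤
      4 * M ^ 2 * Nat.gcd p.natAbs (Nat.gcd q.natAbs r.natAbs) + (4 * M + 1) * r.natAbs := by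
  have hRpos : 0 < r.natAbs := Int.natAbs_pos.mpr hr
  have hhpos : 0 < Nat.gcd q.natAbs r.natAbs := Nat.gcd_pos_of_pos_right _ hRpos
  have hgpos : 0 < Nat.gcd p.natAbs (Nat.gcd q.natAbs r.natAbs) :=
    Nat.gcd_pos_of_pos_right _ hhpos
  have hgh : Nat.gcd p.natAbs (Nat.gcd q.natAbs r.natAbs) ∣ Nat.gcd q.natAbs r.natAbs :=
    Nat.gcd_dvd_right _ _
  have hhR : Nat.gcd q.natAbs r.natAbs ∣ r.natAbs := Nat.gcd_dvd_right _ _
  have hu : 1 ≤ Nat.gcd q.natAbs r.natAbs / Nat.gcd p.natAbs (Nat.gcd q.natAbs r.natAbs) :=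
    Nat.div_pos (Nat.le_of_dvd hhpos hgh) hgpos
  have hw : 1 ≤ r.natAbs / Nat.gcd q.natAbs r.natAbs :=
    Nat.div_pos (Nat.le_of_dvd hRpos hhR) hhpos
  have hR : Nat.gcd p.natAbs (Nat.gcd q.natAbs r.natAbs) *
      (Nat.gcd q.natAbs r.natAbs / Nat.gcd p.natAbs (Nat.gcd q.natAbs r.natAbs)) *
      (r.natAbs / Nat.gcd q.natAbs r.natAbs) = r.natAbs := by
    rw [Nat.mul_div_cancel' hgh, Nat.mul_div_cancel' hhR]
  have hcard := fibre_card M p q r s hr
  have key := fibre_arith M (Nat.gcd p.natAbs (Nat.gcd q.natAbs r.natAbs)) _ _ _ hu hw hcard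
  rw [hR] at key
  exact key

end Vale.Agent.H15.P054
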