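import Vale.Agent.H15.P054.Defs

/-!
# P054 row R3 (GCDSUM): the sum of gcd (p, q, m) over the square |p|, |q| ≤ m

Paper proof.  gcd (p, q, m) is a divisor e of m dividing p and q, so
gcd (p, q, m) ≤ ∑ e ∈ m.divisors, if (e ∣ p ∧ e ∣ q) then e else 0.  Summing over p, q:
∑ e ∈ m.divisors, e * #{p ∈ box m : e ∣ p} ^ 2, and #{p ∈ box m : e ∣ p} ≤ 2 (m / e) + 1
≤ 3 (m / e) (as e ∣ m, m / e ≥ 1).  So the sum is at most
∑ e ∈ m.divisors, e * 9 * (m / e) ^ 2 = 9 m ∑ e ∈ m.divisors, m / e = 9 m ∑ e ∈ m.divisors, e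
(Nat.sum_div_divisors).
-/

namespace Vale.Agent.H15.P054

theorem gcdsum_card_box (T : ℕ) : (box T).card = 2 * T + 1 := by
  unfold box
  rw [Int.card_Icc]
  omega

theorem gcdsum_count (m e : ℕ) (he : 0 < e) :
    ((box m).filter (fun p : ℤ => e ∣ p.natAbs)).card ≤ 2 * (m / e) + 1 := by
  rw [← gcdsum_card_box (m / e)]
  have he' : (0 : ℤ) < (e : ℤ) := by exact_mod_cast he
  refine Finset.card_le_card_of_injOn (fun p : ℤ => p / (e : ℤ)) ?_ ?_
  · intro p hp
    have hp2 : p ∈ (box m).filter (fun p : ℤ => e ∣ p.natAbs) := hp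
    obtain ⟨hpb, hdvd⟩ := Finset.mem_filter.mp hp2
    have hdvd' : (e : ℤ) ∣ p := Int.natCast_dvd.mpr hdvd
    obtain ⟨k, rfl⟩ := hdvd'
    unfold box at hpb
    rw [Finset.mem_Icc] at hpb
    have hgoal : (e : ℤ) * k / (e : ℤ) ∈ box (m / e) := by
      unfold box
      rw [Finset.mem_Icc, Int.mul_ediv_cancel_left _ he'.ne', Int.natCast_div]
      constructor
      · have h1 : -k ≤ (m : ℤ) / (e : ℤ) := by
          rw [Int.le_ediv_iff_mul_le he']
          nlinarith [hpb.1]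
        linarith
      · rw [Int.le_ediv_iff_mul_le he']
        nlinarith [hpb.2]
    exact hgoal
  · intro p hp p' hp' h
    have hp2 : p ∈ (box m).filter (fun p : ℤ => e ∣ p.natAbs) := hp
    have hp2' : p' ∈ (box m).filter (fun p : ℤ => e ∣ p.natAbs) := hp'
    have h1 : (e : ℤ) ∣ p := Int.natCast_dvd.mpr (Finset.mem_filter.mp hp2).2
    have h2 : (e : ℤ) ∣ p' := Int.natCast_dvd.mpr (Finset.mem_filter.mp hp2').2
    have h3 : p / (e : ℤ) = p' / (e : ℤ) := h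
    rw [← Int.ediv_mul_cancel h1, ← Int.ediv_mul_cancel h2, h3]

theorem gcdsum_inner (m e : ℕ) :
    ∑ p ∈ box m, ∑ q ∈ box m, (if (e ∣ p.natAbs ∧ e ∣ q.natAbs) then e else 0) =
      e * ((box m).filter (fun p : ℤ => e ∣ p.natAbs)).card ^ 2 := by
  have h1 : ∀ p : ℤ, ∑ q ∈ box m, (if (e ∣ p.natAbs ∧ e ∣ q.natAbs) then e else 0) =
      if e ∣ p.natAbs then ((box m).filter (fun q : ℤ => e ∣ q.natAbs)).card * e else 0 := by
    intro p
    by_cases hp : e ∣ p.natAbs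
    · simp only [hp, true_and, if_true]
      rw [← Finset.sum_filter, Finset.sum_const, smul_eq_mul]
    · simp [hp]
  rw [Finset.sum_congr rfl (fun p _ => h1 p), ← Finset.sum_filter, Finset.sum_const,
    smul_eq_mul]
  ring

theorem gcd_sum_le (m : ℕ) (hm : 1 ≤ m) :
    ∑ p ∈ box m, ∑ q ∈ box m, Nat.gcd p.natAbs (Nat.gcd q.natAbs m) ≤
      9 * m * ∑ e ∈ m.divisors, e := by
  have h1 : ∀ p q : ℤ, Nat.gcd p.natAbs (Nat.gcd q.natAbs m) ≤
      ∑ e ∈ m.divisors, if (e ∣ p.natAbs ∧ e ∣ q.natAbs) then e else 0 := by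
    intro p q
    have hgm : Nat.gcd p.natAbs (Nat.gcd q.natAbs m) ∣ m :=
      (Nat.gcd_dvd_right _ _).trans (Nat.gcd_dvd_right _ _)
    have hgp : Nat.gcd p.natAbs (Nat.gcd q.natAbs m) ∣ p.natAbs := Nat.gcd_dvd_left _ _
    have hgq : Nat.gcd p.natAbs (Nat.gcd q.natAbs m) ∣ q.natAbs :=
      (Nat.gcd_dvd_right _ _).trans (Nat.gcd_dvd_left _ _)
    have hmem : Nat.gcd p.natAbs (Nat.gcd q.natAbs m) ∈ m.divisors :=
      Nat.mem_divisors.mpr ⟨hgm, by omega⟩
    have h2 := Finset.single_le_sum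
      (f := fun e => if (e ∣ p.natAbs ∧ e ∣ q.natAbs) then e else 0)
      (fun i _ => Nat.zero_le _) hmem
    have h3 : (if (Nat.gcd p.natAbs (Nat.gcd q.natAbs m) ∣ p.natAbs ∧
        Nat.gcd p.natAbs (Nat.gcd q.natAbs m) ∣ q.natAbs) then
        Nat.gcd p.natAbs (Nat.gcd q.natAbs m) else 0) =
        Nat.gcd p.natAbs (Nat.gcd q.natAbs m) := if_pos ⟨hgp, hgq⟩
    rw [h3] at h2
    exact h2
  have hdiv : ∑ d ∈ m.divisors, m / d = ∑ d ∈ m.divisors, d :=
    Nat.sum_div_divisors m (fun x => x)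
  calc ∑ p ∈ box m, ∑ q ∈ box m, Nat.gcd p.natAbs (Nat.gcd q.natAbs m)
      ≤ ∑ p ∈ box m, ∑ q ∈ box m, ∑ e ∈ m.divisors,
          (if (e ∣ p.natAbs ∧ e ∣ q.natAbs) then e else 0) :=
        Finset.sum_le_sum (fun p _ => Finset.sum_le_sum (fun q _ => h1 p q))
    _ = ∑ e ∈ m.divisors, ∑ p ∈ box m, ∑ q ∈ box m,
          (if (e ∣ p.natAbs ∧ e ∣ q.natAbs) then e else 0) := by
        rw [Finset.sum_congr rfl (fun p _ => Finset.sum_comm), Finset.sum_comm]
    _ = ∑ e ∈ m.divisors, e * ((box m).filter (fun p : ℤ => e ∣ p.natAbs)).card ^ 2 :=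
        Finset.sum_congr rfl (fun e _ => gcdsum_inner m e)
    _ ≤ ∑ e ∈ m.divisors, e * (3 * (m / e)) ^ 2 := by
        refine Finset.sum_le_sum (fun e he => ?_)
        have hem := Nat.mem_divisors.mp he
        have hepos : 0 < e := Nat.pos_of_dvd_of_pos hem.1 (by omega)
        have hT : 1 ≤ m / e := Nat.div_pos (Nat.le_of_dvd (by omega) hem.1) hepos
        have hN := gcdsum_count m e hepos
        have h4 : ((box m).filter (fun p : ℤ => e ∣ p.natAbs)).card ≤ 3 * (m / e) := by omega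
        exact Nat.mul_le_mul_left e (Nat.pow_le_pow_left h4 2)
    _ = ∑ e ∈ m.divisors, 9 * m * (m / e) := by
        refine Finset.sum_congr rfl (fun e he => ?_)
        have hem := Nat.mem_divisors.mp he
        have h2 : e * (m / e) = m := Nat.mul_div_cancel' hem.1
        calc e * (3 * (m / e)) ^ 2 = 9 * (e * (m / e)) * (m / e) := by ring
          _ = 9 * m * (m / e) := by rw [h2]
    _ = 9 * m * ∑ e ∈ m.divisors, e := by
        rw [← Finset.mul_sum, hdiv]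

end Vale.Agent.H15.P054
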