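import Vale.Agent.H15.P054.Fibre
import Vale.Agent.H15.P054.GcdSum

/-!
# P054 row R5 (FIBRESUM): sum of the fibre cards over the coefficients |p|, |q| ≤ |r|

Paper proof.  Put m = |r| ≥ 1.  By fib_card_le, for all p, q:
m * card (fib M p q r s) ≤ 4 M^2 gcd (p, q, m) + (4M + 1) m.  Sum over p, q ∈ box m
((2m+1)^2 pairs, Int.card_Icc) and use gcd_sum_le:
m * ∑∑ card ≤ 4 M^2 * 9 m sigma(m) + (4M + 1) m (2m + 1)^2; cancel m.
-/

namespace Vale.Agent.H15.P054

theorem fibsum_card_box (m : ℕ) : (box m).card = 2 * m + 1 := by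
  unfold box
  rw [Int.card_Icc]
  omega

theorem fib_sum_le (M : ℕ) (r s : ℤ) (hr : r ≠ 0) :
    ∑ p ∈ box r.natAbs, ∑ q ∈ box r.natAbs, (fib M p q r s).card ≤
      36 * M ^ 2 * (∑ e ∈ r.natAbs.divisors, e) + (4 * M + 1) * (2 * r.natAbs + 1) ^ 2 := by
  have hm1 : 1 ≤ r.natAbs := Int.natAbs_pos.mpr hr
  have key : r.natAbs * ∑ p ∈ box r.natAbs, ∑ q ∈ box r.natAbs, (fib M p q r s).card ≤
      r.natAbs * (36 * M ^ 2 * (∑ e ∈ r.natAbs.divisors, e)
        + (4 * M + 1) * (2 * r.natAbs + 1) ^ 2) := by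
    calc r.natAbs * ∑ p ∈ box r.natAbs, ∑ q ∈ box r.natAbs, (fib M p q r s).card
        = ∑ p ∈ box r.natAbs, ∑ q ∈ box r.natAbs, r.natAbs * (fib M p q r s).card := by
          rw [Finset.mul_sum]
          refine Finset.sum_congr rfl fun p _ => ?_
          rw [Finset.mul_sum]
      _ ≤ ∑ p ∈ box r.natAbs, ∑ q ∈ box r.natAbs,
            (4 * M ^ 2 * Nat.gcd p.natAbs (Nat.gcd q.natAbs r.natAbs)
              + (4 * M + 1) * r.natAbs) := by
          refine Finset.sum_le_sum fun p _ => Finset.sum_le_sum fun q _ => ?_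
          exact fib_card_le M p q r s hr
      _ = 4 * M ^ 2 * (∑ p ∈ box r.natAbs, ∑ q ∈ box r.natAbs,
            Nat.gcd p.natAbs (Nat.gcd q.natAbs r.natAbs))
            + (4 * M + 1) * r.natAbs * (2 * r.natAbs + 1) ^ 2 := by
          simp only [Finset.sum_add_distrib, Finset.sum_const, smul_eq_mul, fibsum_card_box,
            Finset.mul_sum]
          ring
      _ ≤ 4 * M ^ 2 * (9 * r.natAbs * ∑ e ∈ r.natAbs.divisors, e)
            + (4 * M + 1) * r.natAbs * (2 * r.natAbs + 1) ^ 2 := by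
          have h := gcd_sum_le r.natAbs hm1
          gcongr
      _ = r.natAbs * (36 * M ^ 2 * (∑ e ∈ r.natAbs.divisors, e)
            + (4 * M + 1) * (2 * r.natAbs + 1) ^ 2) := by ring
  exact Nat.le_of_mul_le_mul_left key hm1

end Vale.Agent.H15.P054
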