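import Vale.Agent.H15.P054.Defs

/-!
# P054 row R13 (GEOM): from a set of lattice points of the grid to its difference vectors

Paper proof.  Choose for every p ∈ P its integer coordinate vector c p : Fin d → ℤ
(p i = c p i, 0 ≤ c p i ≤ N); c is injective on P (PiLp.ext / WithLp ext).
* P.card ≤ (N+1)^d: c maps P injectively into Fintype.piFinset (fun _ => Icc 0 N),
  of card (N+1)^d (Fintype.card_piFinset, Int.card_Icc).
* S := (P.erase x).image (fun y => c y - c x): the map is injective on P.erase x, so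
  S.card + 1 = P.card; coordinates lie in [-N, N], so S ⊆ cube d N.
* For y ∈ P: dist x y ^ 2 = ∑ i, (x i - y i)^2 = ((∑ i, (c y - c x) i ^ 2 : ℤ) : ℝ)
  (EuclideanSpace.dist_eq, Real.sq_sqrt).  So (fun v => ∑ i, v i ^ 2) ∘ (fun y => c y - c x)
  equals g ∘ dist x on P.erase x with g t = ⌊t ^ 2⌋, hence
  S.image Q = ((P.erase x).image (dist x)).image g and Finset.card_image_le finishes.
-/

namespace Vale.Agent.H15.P054

theorem exists_diff_set (d N : ℕ) (P : Finset (EuclideanSpace ℝ (Fin d)))
    (hP : ∀ p ∈ P, ∀ i, ∃ k : ℤ, p i = (k : ℝ) ∧ 0 ≤ k ∧ k ≤ (N : ℤ))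
    (x : EuclideanSpace ℝ (Fin d)) (hx : x ∈ P) :
    P.card ≤ (N + 1) ^ d ∧
    ∃ S : Finset (Fin d → ℤ), S ⊆ cube d N ∧ S.card + 1 = P.card ∧
      (S.image (fun v => ∑ i, v i ^ 2)).card ≤ ((P.erase x).image (dist x)).card := by
  classical
  obtain ⟨c, hc⟩ : ∃ c : EuclideanSpace ℝ (Fin d) → (Fin d → ℤ), c = fun p i => ⌊p i⌋ :=
    ⟨_, rfl⟩
  have hF : ∀ p ∈ P, ∀ i, ((c p i : ℤ) : ℝ) = p i ∧ 0 ≤ c p i ∧ c p i ≤ (N : ℤ) := by
    intro p hp i
    obtain ⟨k, hk, h0, hN⟩ := hP p hp i
    have e : c p i = k := by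
      rw [hc]
      show ⌊p i⌋ = k
      rw [hk, Int.floor_intCast]
    rw [e]
    exact ⟨hk.symm, h0, hN⟩
  have hinj : Set.InjOn c (P : Set (EuclideanSpace ℝ (Fin d))) := by
    intro p hp q hq hpq
    have hp' := Finset.mem_coe.1 hp
    have hq' := Finset.mem_coe.1 hq
    apply PiLp.ext
    intro i
    rw [← (hF p hp' i).1, ← (hF q hq' i).1, hpq]
  refine ⟨?_, ?_⟩
  · have hmaps : Set.MapsTo c (P : Set (EuclideanSpace ℝ (Fin d)))
        (Fintype.piFinset (fun _ : Fin d => Finset.Icc (0 : ℤ) (N : ℤ)) :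
          Finset (Fin d → ℤ)) := by
      intro p hp
      rw [Finset.mem_coe, Fintype.mem_piFinset]
      intro i
      rw [Finset.mem_Icc]
      exact (hF p (Finset.mem_coe.1 hp) i).2
    have h := Finset.card_le_card_of_injOn c hmaps hinj
    rw [Fintype.card_piFinset] at h
    simp only [Int.card_Icc, Finset.prod_const, Finset.card_univ, Fintype.card_fin] at h
    have e : ((N : ℤ) + 1 - 0).toNat = N + 1 := by omega
    rw [e] at h
    exact h
  · refine ⟨(P.erase x).image (fun y => c y - c x), ?_, ?_, ?_⟩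
    · intro v hv
      rw [Finset.mem_image] at hv
      obtain ⟨y, hy, rfl⟩ := hv
      have hyP : y ∈ P := Finset.mem_of_mem_erase hy
      unfold cube
      rw [Fintype.mem_piFinset]
      intro i
      unfold box
      rw [Finset.mem_Icc, Pi.sub_apply]
      have h1 := (hF y hyP i).2
      have h2 := (hF x hx i).2
      constructor <;> omega
    · rw [Finset.card_image_of_injOn, Finset.card_erase_add_one hx]
      intro y hy y' hy' hyy
      have hyP : y ∈ P := Finset.mem_of_mem_erase (Finset.mem_coe.1 hy)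
      have hy'P : y' ∈ P := Finset.mem_of_mem_erase (Finset.mem_coe.1 hy')
      have hyy' : c y - c x = c y' - c x := hyy
      exact hinj (Finset.mem_coe.2 hyP) (Finset.mem_coe.2 hy'P) (sub_left_inj.1 hyy')
    · have hdist : ∀ y ∈ P, (∑ i, (c y - c x) i ^ 2 : ℤ) = ⌊dist x y ^ 2⌋ := by
        intro y hy
        have h1 : dist x y ^ 2 = ((∑ i, (c y - c x) i ^ 2 : ℤ) : ℝ) := by
          rw [EuclideanSpace.dist_eq, Real.sq_sqrt (Finset.sum_nonneg (fun i _ => sq_nonneg _)),
            Int.cast_sum]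
          refine Finset.sum_congr rfl (fun i _ => ?_)
          rw [Int.cast_pow, Pi.sub_apply, Int.cast_sub, (hF y hy i).1, (hF x hx i).1,
            Real.dist_eq, sq_abs]
          ring
        rw [h1, Int.floor_intCast]
      have himg : ((P.erase x).image (fun y => c y - c x)).image (fun v => ∑ i, v i ^ 2) =
          ((P.erase x).image (dist x)).image (fun t => ⌊t ^ 2⌋) := by
        rw [Finset.image_image, Finset.image_image]
        apply Finset.image_congr
        intro y hy
        have hyP : y ∈ P := Finset.mem_of_mem_erase (Finset.mem_coe.1 hy)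
        exact hdist y hyP
      rw [himg]
      exact Finset.card_image_le

end Vale.Agent.H15.P054
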