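import Vale.Agent.H15.P054.SolD
import Vale.Agent.H15.P054.Energy
import Vale.Agent.H15.P054.CauchySchwarz
import Vale.Agent.H15.P054.Geom
import Vale.Agent.H15.P054.Dense

/-!
# P054: distinct distances of dense subsets of the integer grid (assembly)
-/

namespace Vale.Agent.H15.P054

/-- The pinned inequality in natural numbers. -/
theorem pinned_nat (d : ℕ) (hd : 3 ≤ d) (N : ℕ) (hN : 1 ≤ N)
    (P : Finset (EuclideanSpace ℝ (Fin d)))
    (hP : ∀ p ∈ P, ∀ i, ∃ k : ℤ, p i = (k : ℝ) ∧ 0 ≤ k ∧ k ≤ (N : ℤ))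
    (x : EuclideanSpace ℝ (Fin d)) (hx : x ∈ P) :
    (P.card - 1) ^ 2 ≤
      8208 * 25 ^ (d - 3) * N ^ (2 * d - 2) * ((P.erase x).image (dist x)).card := by
  obtain ⟨-, S, hS, hcard, himg⟩ := exists_diff_set d N P hP x hx
  have h1 := card_sq_le_image_mul_energy S (fun v : Fin d → ℤ => ∑ i, v i ^ 2)
  have h2 := energy_le d N S hS
  have h3 := solD_card_le d (2 * N) hd (by omega) 0
  have hSc : S.card = P.card - 1 := by omega
  have h4 : (2 * (2 * N) + 1) ^ (2 * (d - 3)) * (513 * (2 * N) ^ 4) ≤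
      8208 * 25 ^ (d - 3) * N ^ (2 * d - 2) := by
    have e1 : 2 * (2 * N) + 1 ≤ 5 * N := by omega
    have e2 : (2 * (2 * N) + 1) ^ (2 * (d - 3)) ≤ (5 * N) ^ (2 * (d - 3)) :=
      Nat.pow_le_pow_left e1 _
    have e3 : (5 * N) ^ (2 * (d - 3)) = 25 ^ (d - 3) * N ^ (2 * (d - 3)) := by
      rw [mul_pow, pow_mul]; norm_num
    have e4 : N ^ (2 * d - 2) = N ^ (2 * (d - 3)) * N ^ 4 := by
      rw [← pow_add]; congr 1; omega
    calc (2 * (2 * N) + 1) ^ (2 * (d - 3)) * (513 * (2 * N) ^ 4)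
        ≤ (5 * N) ^ (2 * (d - 3)) * (513 * (2 * N) ^ 4) := Nat.mul_le_mul_right _ e2
      _ = 8208 * 25 ^ (d - 3) * N ^ (2 * d - 2) := by rw [e3, e4]; ring
  calc (P.card - 1) ^ 2 = S.card ^ 2 := by rw [hSc]
    _ ≤ (S.image (fun v : Fin d → ℤ => ∑ i, v i ^ 2)).card *
          ((S ×ˢ S).filter (fun t => ∑ i, t.1 i ^ 2 = ∑ i, t.2 i ^ 2)).card := h1
    _ ≤ ((P.erase x).image (dist x)).card * (solD d (2 * N) 0).card :=
        Nat.mul_le_mul himg h2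
    _ ≤ ((P.erase x).image (dist x)).card *
          ((2 * (2 * N) + 1) ^ (2 * (d - 3)) * (513 * (2 * N) ^ 4)) :=
        Nat.mul_le_mul_left _ h3
    _ ≤ ((P.erase x).image (dist x)).card * (8208 * 25 ^ (d - 3) * N ^ (2 * d - 2)) :=
        Nat.mul_le_mul_left _ h4
    _ = 8208 * 25 ^ (d - 3) * N ^ (2 * d - 2) * ((P.erase x).image (dist x)).card := by ring

/-- The distances from one point are among all distances. -/
theorem pinned_le_all {E : Type*} [MetricSpace E] [DecidableEq E] (P : Finset E) (x : E)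
    (hx : x ∈ P) :
    ((P.erase x).image (dist x)).card ≤ (P.offDiag.image (fun t => dist t.1 t.2)).card := by
  apply Finset.card_le_card
  intro t ht
  rw [Finset.mem_image] at ht ⊢
  obtain ⟨y, hy, rfl⟩ := ht
  rw [Finset.mem_erase] at hy
  exact ⟨(x, y), Finset.mem_offDiag.mpr ⟨hx, hy.2, fun h => hy.1 h.symm⟩, rfl⟩

theorem final_statement (d : ℕ) (hd : 3 ≤ d) (N : ℕ) (hN : 1 ≤ N)
    (P : Finset (EuclideanSpace ℝ (Fin d)))
    (hP : ∀ p ∈ P, ∀ i, ∃ k : ℤ, p i = (k : ℝ) ∧ 0 ≤ k ∧ k ≤ (N : ℤ)) :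
    (∀ x ∈ P, ((P.card : ℝ) - 1) ^ 2 ≤
        8208 * 25 ^ (d - 3) * (N : ℝ) ^ (2 * d - 2) *
          (((P.erase x).image (dist x)).card : ℝ)) ∧
    (∀ δ : ℝ, 0 < δ → 2 ≤ P.card → δ * (N : ℝ) ^ d ≤ (P.card : ℝ) →
        (∀ x ∈ P,
          δ ^ 2 / (16 * (8208 * 25 ^ (d - 3))) * (P.card : ℝ) ^ ((2 : ℝ) / (d : ℝ)) ≤
            (((P.erase x).image (dist x)).card : ℝ)) ∧
        δ ^ 2 / (16 * (8208 * 25 ^ (d - 3))) * (P.card : ℝ) ^ ((2 : ℝ) / (d : ℝ)) ≤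
          ((P.offDiag.image (fun t => dist t.1 t.2)).card : ℝ)) := by
  have hA : ∀ x ∈ P, ((P.card : ℝ) - 1) ^ 2 ≤
        8208 * 25 ^ (d - 3) * (N : ℝ) ^ (2 * d - 2) *
          (((P.erase x).image (dist x)).card : ℝ) := by
    intro x hx
    have h := pinned_nat d hd N hN P hP x hx
    have hpos : 1 ≤ P.card := Finset.card_pos.mpr ⟨x, hx⟩
    have hc : ((P.card - 1 : ℕ) : ℝ) = (P.card : ℝ) - 1 := by
      rw [Nat.cast_sub hpos]; simp
    have h' : (((P.card - 1) ^ 2 : ℕ) : ℝ) ≤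
        ((8208 * 25 ^ (d - 3) * N ^ (2 * d - 2) * ((P.erase x).image (dist x)).card : ℕ) : ℝ) :=
      by exact_mod_cast h
    rw [Nat.cast_pow, hc] at h'
    simpa using h'
  refine ⟨hA, ?_⟩
  intro δ hδ hn hdense
  have hC : (0 : ℝ) < 8208 * 25 ^ (d - 3) := by positivity
  have key : ∀ x ∈ P,
      δ ^ 2 / (16 * (8208 * 25 ^ (d - 3))) * (P.card : ℝ) ^ ((2 : ℝ) / (d : ℝ)) ≤
        (((P.erase x).image (dist x)).card : ℝ) := by
    intro x hx
    obtain ⟨hgrid, -⟩ := exists_diff_set d N P hP x hx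
    exact dense_bound d N P.card hd hN (8208 * 25 ^ (d - 3))
      (((P.erase x).image (dist x)).card : ℝ) δ hC hδ hn hdense hgrid (hA x hx)
  refine ⟨key, ?_⟩
  obtain ⟨x, hx⟩ : P.Nonempty := Finset.card_pos.mp (by omega)
  have h2 : (((P.erase x).image (dist x)).card : ℝ) ≤
      ((P.offDiag.image (fun t => dist t.1 t.2)).card : ℝ) := by
    exact_mod_cast pinned_le_all P x hx
  exact (key x hx).trans h2

end Vale.Agent.H15.P054
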