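import Vale.Agent.H15.P054.Defs

/-!
# P054 row R1 (RESIDUE): a residue class meets the box in at most 2M/q + 1 points

Paper proof: the box consists of 2M + 1 consecutive integers; two elements of one residue
class mod q differ by a multiple of q.  E.g. inject the filtered set into
Finset.range (2 * M / q + 1) by x => ((x - x0) / q).toNat for the least element x0, or use
Int.Icc_filter_modEq_card-style lemmas of Mathlib (Mathlib.Data.Int.CardIntervalMod).
-/

namespace Vale.Agent.H15.P054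

theorem res_mem {M q : ℕ} {r x : ℤ}
    (hx : x ∈ (box M).filter (fun x => (q : ℤ) ∣ x - r)) :
    (-(M : ℤ) ≤ x ∧ x ≤ (M : ℤ)) ∧ (q : ℤ) ∣ x - r := by
  rw [Finset.mem_filter] at hx
  obtain ⟨hb, hd⟩ := hx
  unfold box at hb
  rw [Finset.mem_Icc] at hb
  exact ⟨hb, hd⟩

theorem box_residue_card_le (M q : ℕ) (hq : 1 ≤ q) (r : ℤ) :
    ((box M).filter (fun x => (q : ℤ) ∣ x - r)).card ≤ 2 * M / q + 1 := by
  have hq0 : (0 : ℤ) < (q : ℤ) := by exact_mod_cast hq
  rw [← Finset.card_range (2 * M / q + 1)]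
  apply Finset.card_le_card_of_injOn (fun x => ((x + (M : ℤ)) / (q : ℤ)).toNat)
  · intro x hx
    have hx' := res_mem (Finset.mem_coe.mp hx)
    obtain ⟨⟨hb1, hb2⟩, _⟩ := hx'
    rw [Finset.mem_coe, Finset.mem_range, Nat.lt_succ_iff, Int.toNat_le]
    have h1 : (x + (M : ℤ)) / (q : ℤ) ≤ (2 * (M : ℤ)) / (q : ℤ) :=
      Int.ediv_le_ediv hq0 (by linarith)
    have h2 : ((2 * M / q : ℕ) : ℤ) = (2 * (M : ℤ)) / (q : ℤ) := by
      push_cast
      rfl
    rw [h2]
    exact h1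
  · intro x hx y hy hxy
    obtain ⟨⟨hx1, hx2⟩, hxd⟩ := res_mem (Finset.mem_coe.mp hx)
    obtain ⟨⟨hy1, hy2⟩, hyd⟩ := res_mem (Finset.mem_coe.mp hy)
    have hxn : 0 ≤ (x + (M : ℤ)) / (q : ℤ) := Int.ediv_nonneg (by linarith) hq0.le
    have hyn : 0 ≤ (y + (M : ℤ)) / (q : ℤ) := Int.ediv_nonneg (by linarith) hq0.le
    have hquot : (x + (M : ℤ)) / (q : ℤ) = (y + (M : ℤ)) / (q : ℤ) := by
      have h := congrArg (fun n : ℕ => (n : ℤ)) hxy
      simp only [Int.toNat_of_nonneg hxn, Int.toNat_of_nonneg hyn] at h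
      exact h
    have hmod : (x + (M : ℤ)) % (q : ℤ) = (y + (M : ℤ)) % (q : ℤ) := by
      have hdvd : (q : ℤ) ∣ (y + (M : ℤ)) - (x + (M : ℤ)) := by
        have : (y + (M : ℤ)) - (x + (M : ℤ)) = (y - r) - (x - r) := by ring
        rw [this]
        exact dvd_sub hyd hxd
      exact (Int.modEq_iff_dvd.mpr hdvd)
    have e1 := Int.mul_ediv_add_emod (x + (M : ℤ)) (q : ℤ)
    have e2 := Int.mul_ediv_add_emod (y + (M : ℤ)) (q : ℤ)
    rw [hquot, hmod] at e1
    linarith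

end Vale.Agent.H15.P054
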