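import Mathlib

/-!
# P054 row R4 (SIGMASUM): ∑ m ≤ M, sigma m ≤ M ^ 2

Paper proof.  ∑ m ∈ Icc 1 M, ∑ e ∈ m.divisors, e = ∑ e ∈ Icc 1 M, e * #{m ∈ Icc 1 M : e ∣ m}
= ∑ e ∈ Icc 1 M, e * (M / e) ≤ ∑ e ∈ Icc 1 M, M = M ^ 2.  (Or induction-free: write the
double sum over pairs (e, k) with e * k ≤ M.)
-/

namespace Vale.Agent.H15.P054

theorem sum_sigma_le (M : ℕ) :
    ∑ m ∈ Finset.Icc 1 M, ∑ e ∈ m.divisors, e ≤ M ^ 2 := by
  have h1 : ∀ m ∈ Finset.Icc 1 M, ∑ e ∈ m.divisors, e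
      = ∑ e ∈ Finset.Icc 1 M, if e ∣ m then e else 0 := by
    intro m hm
    rw [Finset.mem_Icc] at hm
    rw [← Finset.sum_filter]
    refine Finset.sum_congr ?_ (fun _ _ => rfl)
    ext e
    simp only [Nat.mem_divisors, Finset.mem_filter, Finset.mem_Icc]
    constructor
    · rintro ⟨hd, -⟩
      exact ⟨⟨Nat.pos_of_dvd_of_pos hd (by omega), (Nat.le_of_dvd (by omega) hd).trans hm.2⟩, hd⟩
    · rintro ⟨-, hd⟩
      exact ⟨hd, by omega⟩
  rw [Finset.sum_congr rfl h1, Finset.sum_comm]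
  have h2 : ∀ e ∈ Finset.Icc 1 M, ∑ m ∈ Finset.Icc 1 M, (if e ∣ m then e else 0) ≤ M := by
    intro e _
    rw [← Finset.sum_filter, Finset.sum_const, smul_eq_mul]
    have hc : ((Finset.Icc 1 M).filter (fun m => e ∣ m)).card = M / e := by
      have h3 : Finset.Icc 1 M = Finset.Ioc 0 M := by
        ext x
        simp only [Finset.mem_Icc, Finset.mem_Ioc]
        omega
      rw [h3]
      exact Nat.Ioc_filter_dvd_card_eq_div M e
    rw [hc]
    exact Nat.div_mul_le_self M e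
  calc ∑ e ∈ Finset.Icc 1 M, ∑ m ∈ Finset.Icc 1 M, (if e ∣ m then e else 0)
      ≤ ∑ _e ∈ Finset.Icc 1 M, M := Finset.sum_le_sum h2
    _ = M ^ 2 := by
      rw [Finset.sum_const, Nat.card_Icc, smul_eq_mul, sq]
      simp

end Vale.Agent.H15.P054
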