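import Vale.Agent.H15.P054.WSet

/-!
# P054 row R7 (SOL3): #{(a, b) : a . b = s} ≤ 513 M^4 in three dimensions

Paper proof.  Let ((a1, a2, a3), (b1, b2, b3)) ∈ sol3 M s.
* If a = 0: at most (2M+1)^3 ≤ 27 M^3 ≤ 27 M^4 pairs (only b is free).
* Otherwise one of the coordinates of a is nonzero and largest in absolute value:
  - a3: the pair itself lies in wset M s;
  - a1: ((a2, a3, a1), (b2, b3, b1)) ∈ wset M s;
  - a2: ((a1, a3, a2), (b1, b3, b2)) ∈ wset M s.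
  Each of the three maps is injective, so each case has at most 162 M^4 pairs
  (wset_card_le).
Total 27 M^4 + 3 * 162 M^4 = 513 M^4.  (Cover sol3 M s by four finsets and use
Finset.card_union_le, Finset.card_le_card_of_injOn.)
-/

namespace Vale.Agent.H15.P054

/-- The coordinate permutation sending ((a2, a3, a1), (b2, b3, b1)) back to (a, b). -/
def sol3_psi1 (t : (ℤ × ℤ × ℤ) × (ℤ × ℤ × ℤ)) : (ℤ × ℤ × ℤ) × (ℤ × ℤ × ℤ) :=
  ((t.1.2.2, t.1.1, t.1.2.1), (t.2.2.2, t.2.1, t.2.2.1))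

/-- The coordinate permutation exchanging the second and the third coordinate. -/
def sol3_psi2 (t : (ℤ × ℤ × ℤ) × (ℤ × ℤ × ℤ)) : (ℤ × ℤ × ℤ) × (ℤ × ℤ × ℤ) :=
  ((t.1.1, t.1.2.2, t.1.2.1), (t.2.1, t.2.2.2, t.2.2.1))

theorem sol3_box_card (M : ℕ) : (box M).card = 2 * M + 1 := by
  unfold box
  rw [Int.card_Icc]
  omega

theorem sol3_zero_card (M : ℕ) (hM : 1 ≤ M) :
    (({((0 : ℤ), (0 : ℤ), (0 : ℤ))} : Finset (ℤ × ℤ × ℤ)) ×ˢ
      (box M ×ˢ box M ×ˢ box M)).card ≤ 27 * M ^ 4 := by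
  rw [Finset.card_product, Finset.card_singleton, Finset.card_product, Finset.card_product,
    sol3_box_card]
  have h1 : 2 * M + 1 ≤ 3 * M := by omega
  calc 1 * ((2 * M + 1) * ((2 * M + 1) * (2 * M + 1)))
      ≤ 1 * ((3 * M) * ((3 * M) * (3 * M))) := by gcongr
    _ = 27 * M ^ 3 := by ring
    _ ≤ 27 * M ^ 4 := by
        apply Nat.mul_le_mul_left
        exact Nat.pow_le_pow_right hM (by norm_num)

theorem sol3_mem_wset (M : ℕ) (s : ℤ) (c1 c2 c3 d1 d2 d3 : ℤ)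
    (hc1 : c1 ∈ box M) (hc2 : c2 ∈ box M) (hc3 : c3 ∈ box M)
    (hd1 : d1 ∈ box M) (hd2 : d2 ∈ box M) (hd3 : d3 ∈ box M)
    (h0 : c3 ≠ 0) (h1 : |c1| ≤ |c3|) (h2 : |c2| ≤ |c3|)
    (heq : c1 * d1 + c2 * d2 + c3 * d3 = s) :
    ((c1, c2, c3), (d1, d2, d3)) ∈ wset M s := by
  unfold wset
  rw [Finset.mem_filter]
  exact ⟨Finset.mem_product.2 ⟨Finset.mem_product.2 ⟨hc1, Finset.mem_product.2 ⟨hc2, hc3⟩⟩,
    Finset.mem_product.2 ⟨hd1, Finset.mem_product.2 ⟨hd2, hd3⟩⟩⟩, h0, h1, h2, heq⟩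

theorem sol3_cover (M : ℕ) (s : ℤ) :
    sol3 M s ⊆ (({((0 : ℤ), (0 : ℤ), (0 : ℤ))} : Finset (ℤ × ℤ × ℤ)) ×ˢ
        (box M ×ˢ box M ×ˢ box M)) ∪ wset M s ∪ (wset M s).image sol3_psi1
        ∪ (wset M s).image sol3_psi2 := by
  rintro ⟨⟨a1, a2, a3⟩, ⟨b1, b2, b3⟩⟩ ht
  unfold sol3 at ht
  rw [Finset.mem_filter, Finset.mem_product, Finset.mem_product, Finset.mem_product,
    Finset.mem_product, Finset.mem_product] at ht
  obtain ⟨⟨⟨ha1, ha2, ha3⟩, hb1, hb2, hb3⟩, heq⟩ := ht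
  simp only at ha1 ha2 ha3 hb1 hb2 hb3 heq
  have memZ : a1 = 0 → a2 = 0 → a3 = 0 →
      ((a1, a2, a3), (b1, b2, b3)) ∈ (({((0 : ℤ), (0 : ℤ), (0 : ℤ))} : Finset (ℤ × ℤ × ℤ)) ×ˢ
        (box M ×ˢ box M ×ˢ box M)) ∪ wset M s ∪ (wset M s).image sol3_psi1
        ∪ (wset M s).image sol3_psi2 := by
    intro h1 h2 h3
    subst h1 h2 h3
    apply Finset.mem_union_left
    apply Finset.mem_union_left
    apply Finset.mem_union_left
    exact Finset.mem_product.2 ⟨Finset.mem_singleton_self _,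
      Finset.mem_product.2 ⟨hb1, Finset.mem_product.2 ⟨hb2, hb3⟩⟩⟩
  have hz : ∀ x y : ℤ, |x| ≤ |y| → y = 0 → x = 0 := by
    intro x y h hy
    rw [hy, abs_zero] at h
    exact abs_eq_zero.1 (le_antisymm h (abs_nonneg x))
  by_cases h3 : |a1| ≤ |a3| ∧ |a2| ≤ |a3|
  · by_cases h0 : a3 = 0
    · exact memZ (hz _ _ h3.1 h0) (hz _ _ h3.2 h0) h0
    · apply Finset.mem_union_left
      apply Finset.mem_union_left
      apply Finset.mem_union_right
      exact sol3_mem_wset M s a1 a2 a3 b1 b2 b3 ha1 ha2 ha3 hb1 hb2 hb3 h0 h3.1 h3.2 heq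
  · by_cases h1 : |a2| ≤ |a1| ∧ |a3| ≤ |a1|
    · by_cases h0 : a1 = 0
      · exact memZ h0 (hz _ _ h1.1 h0) (hz _ _ h1.2 h0)
      · apply Finset.mem_union_left
        apply Finset.mem_union_right
        rw [Finset.mem_image]
        exact ⟨((a2, a3, a1), (b2, b3, b1)),
          sol3_mem_wset M s a2 a3 a1 b2 b3 b1 ha2 ha3 ha1 hb2 hb3 hb1 h0 h1.1 h1.2
            (by linarith), rfl⟩
    · have hord : ∀ x y z : ℤ, ¬ (x ≤ z ∧ y ≤ z) → ¬ (y ≤ x ∧ z ≤ x) → x ≤ y ∧ z ≤ y := by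
        intro x y z h h'
        omega
      have h2 := hord _ _ _ h3 h1
      by_cases h0 : a2 = 0
      · exact memZ (hz _ _ h2.1 h0) h0 (hz _ _ h2.2 h0)
      · apply Finset.mem_union_right
        rw [Finset.mem_image]
        exact ⟨((a1, a3, a2), (b1, b3, b2)),
          sol3_mem_wset M s a1 a3 a2 b1 b3 b2 ha1 ha3 ha2 hb1 hb3 hb2 h0 h2.1 h2.2
            (by linarith), rfl⟩

theorem sol3_card_le (M : ℕ) (hM : 1 ≤ M) (s : ℤ) :
    (sol3 M s).card ≤ 513 * M ^ 4 := by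
  have hw := wset_card_le M hM s
  have h1 := Finset.card_le_card (sol3_cover M s)
  have h2 : ((({((0 : ℤ), (0 : ℤ), (0 : ℤ))} : Finset (ℤ × ℤ × ℤ)) ×ˢ
        (box M ×ˢ box M ×ˢ box M)) ∪ wset M s ∪ (wset M s).image sol3_psi1
        ∪ (wset M s).image sol3_psi2).card
      ≤ (({((0 : ℤ), (0 : ℤ), (0 : ℤ))} : Finset (ℤ × ℤ × ℤ)) ×ˢ
        (box M ×ˢ box M ×ˢ box M)).card + (wset M s).card + (wset M s).card
        + (wset M s).card := by
    refine (Finset.card_union_le _ _).trans ?_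
    refine add_le_add ((Finset.card_union_le _ _).trans ?_) Finset.card_image_le
    exact add_le_add (Finset.card_union_le _ _) Finset.card_image_le
  have hz := sol3_zero_card M hM
  linarith

end Vale.Agent.H15.P054
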