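import Vale.Agent.H15.P054.Defs

/-!
# P054 row R8 (SOLBASE): vectors Fin 3 → ℤ versus triples

Paper proof.  The map t ↦ ((t.1 0, t.1 1, t.1 2), (t.2 0, t.2 1, t.2 2)) is injective and maps
solD 3 M s into sol3 M s (Fin.sum_univ_three, Fintype.mem_piFinset).
-/

namespace Vale.Agent.H15.P054

theorem solD_three_card_le (M : ℕ) (s : ℤ) :
    (solD 3 M s).card ≤ (sol3 M s).card := by
  apply Finset.card_le_card_of_injOn
    (fun t : (Fin 3 → ℤ) × (Fin 3 → ℤ) => ((t.1 0, t.1 1, t.1 2), (t.2 0, t.2 1, t.2 2)))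
  · intro t ht
    have ht' := Finset.mem_coe.mp ht
    unfold solD at ht'
    rw [Finset.mem_filter, Finset.mem_product] at ht'
    obtain ⟨⟨h1, h2⟩, hs⟩ := ht'
    unfold cube at h1 h2
    rw [Fintype.mem_piFinset] at h1 h2
    rw [Fin.sum_univ_three] at hs
    apply Finset.mem_coe.mpr
    unfold sol3
    rw [Finset.mem_filter]
    refine ⟨?_, hs⟩
    simp only [Finset.mem_product]
    exact ⟨⟨h1 0, h1 1, h1 2⟩, ⟨h2 0, h2 1, h2 2⟩⟩
  · intro t ht t' ht' heq
    simp only [Prod.mk.injEq] at heq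
    obtain ⟨⟨a0, a1, a2⟩, ⟨b0, b1, b2⟩⟩ := heq
    apply Prod.ext
    · funext i
      fin_cases i
      · exact a0
      · exact a1
      · exact a2
    · funext i
      fin_cases i
      · exact b0
      · exact b1
      · exact b2

end Vale.Agent.H15.P054
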