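import Vale.Agent.H15.P054.Defs

/-!
# P054 row R9 (SOLSTEP): one more coordinate costs a factor (2M+1)^2

Paper proof.  For (a, b) ∈ solD (d+1) M s put a = Fin.cons a0 a', b = Fin.cons b0 b'
(a0 = a 0, a' = Fin.tail a).  Then a0, b0 ∈ box M, (a', b') ∈ solD d M (s - a0 * b0)
(Fin.sum_univ_succ).  The map (a, b) ↦ ((a0, b0), (a', b')) is injective, so
card (solD (d+1) M s) ≤ ∑ (a0, b0) ∈ box M ×ˢ box M, card (solD d M (s - a0 * b0))
≤ (2M+1)^2 * K (Int.card_Icc: card (box M) = 2M + 1).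
-/

namespace Vale.Agent.H15.P054

theorem solstep_card_box (M : ℕ) : (box M).card = 2 * M + 1 := by
  rw [box, Int.card_Icc]
  omega

theorem solstep_subset (d M : ℕ) (s : ℤ) :
    solD (d + 1) M s ⊆ (box M ×ˢ box M).biUnion (fun p =>
      (solD d M (s - p.1 * p.2)).image
        (fun q => ((Fin.cons p.1 q.1 : Fin (d + 1) → ℤ),
          (Fin.cons p.2 q.2 : Fin (d + 1) → ℤ)))) := by
  intro t ht
  rw [solD, Finset.mem_filter, Finset.mem_product] at ht
  obtain ⟨⟨h1, h2⟩, h3⟩ := ht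
  rw [cube, Fintype.mem_piFinset] at h1 h2
  rw [Finset.mem_biUnion]
  refine ⟨(t.1 0, t.2 0), Finset.mem_product.mpr ⟨h1 0, h2 0⟩, ?_⟩
  rw [Finset.mem_image]
  refine ⟨(Fin.tail t.1, Fin.tail t.2), ?_, ?_⟩
  · rw [solD, Finset.mem_filter, Finset.mem_product]
    refine ⟨⟨?_, ?_⟩, ?_⟩
    · rw [cube, Fintype.mem_piFinset]
      intro i
      exact h1 i.succ
    · rw [cube, Fintype.mem_piFinset]
      intro i
      exact h2 i.succ
    · rw [Fin.sum_univ_succ] at h3
      simp only [Fin.tail]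
      linarith
  · simp only [Fin.cons_self_tail]

theorem solD_succ_card_le (d M K : ℕ) (h : ∀ t : ℤ, (solD d M t).card ≤ K) (s : ℤ) :
    (solD (d + 1) M s).card ≤ (2 * M + 1) ^ 2 * K := by
  calc (solD (d + 1) M s).card
      ≤ ((box M ×ˢ box M).biUnion (fun p =>
          (solD d M (s - p.1 * p.2)).image
            (fun q => ((Fin.cons p.1 q.1 : Fin (d + 1) → ℤ),
              (Fin.cons p.2 q.2 : Fin (d + 1) → ℤ))))).card :=
        Finset.card_le_card (solstep_subset d M s)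
    _ ≤ ∑ p ∈ box M ×ˢ box M, ((solD d M (s - p.1 * p.2)).image
            (fun q => ((Fin.cons p.1 q.1 : Fin (d + 1) → ℤ),
              (Fin.cons p.2 q.2 : Fin (d + 1) → ℤ)))).card :=
        Finset.card_biUnion_le
    _ ≤ ∑ _p ∈ box M ×ˢ box M, K :=
        Finset.sum_le_sum (fun p _ => (Finset.card_image_le).trans (h _))
    _ = (2 * M + 1) ^ 2 * K := by
        rw [Finset.sum_const, Finset.card_product, smul_eq_mul, solstep_card_box]
        ring

end Vale.Agent.H15.P054
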