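import Vale.Agent.H15.P054.Sol3
import Vale.Agent.H15.P054.SolBase
import Vale.Agent.H15.P054.SolStep

/-!
# P054: the count of solutions of a . b = s in every dimension d at least 3
-/

namespace Vale.Agent.H15.P054

theorem solD_add_card_le (k M : ℕ) (hM : 1 ≤ M) :
    ∀ s : ℤ, (solD (3 + k) M s).card ≤ (2 * M + 1) ^ (2 * k) * (513 * M ^ 4) := by
  induction k with
  | zero =>
    intro s
    simpa using (solD_three_card_le M s).trans (sol3_card_le M hM s)
  | succ k ih =>
    intro s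
    have h := solD_succ_card_le (3 + k) M _ ih s
    calc (solD (3 + (k + 1)) M s).card = (solD (3 + k + 1) M s).card := by rfl
      _ ≤ (2 * M + 1) ^ 2 * ((2 * M + 1) ^ (2 * k) * (513 * M ^ 4)) := h
      _ = (2 * M + 1) ^ (2 * (k + 1)) * (513 * M ^ 4) := by ring

theorem solD_card_le (d M : ℕ) (hd : 3 ≤ d) (hM : 1 ≤ M) (s : ℤ) :
    (solD d M s).card ≤ (2 * M + 1) ^ (2 * (d - 3)) * (513 * M ^ 4) := by
  obtain ⟨k, rfl⟩ := Nat.exists_eq_add_of_le hd
  simpa using solD_add_card_le k M hM s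

end Vale.Agent.H15.P054
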