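import Vale.Agent.H15.P054.FibreSum
import Vale.Agent.H15.P054.SigmaSum

/-!
# P054 row R6 (WSET): the pairs whose third coefficient is the largest

Paper proof.  An element of wset M s is ((p, q, r), (x, y, z)) with r ∈ box M, r ≠ 0,
p, q ∈ box |r| (that is |p|, |q| ≤ |r|), and (x, y, z) ∈ fib M p q r s.  Hence
card (wset M s) ≤ ∑ r ∈ (box M).filter (· ≠ 0), ∑ p ∈ box |r|, ∑ q ∈ box |r|,
card (fib M p q r s) (e.g. Finset.card_le_card into a sigma / biUnion, or
Finset.card_eq_sum_card_fiberwise along t ↦ t.1).  By fib_sum_le the inner double sum is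
at most 36 M^2 sigma(|r|) + (4M+1)(2|r|+1)^2 ≤ 36 M^2 sigma(|r|) + 5M * 9 M^2
(|r| ≤ M, 1 ≤ M).  The nonzero r in the box are m and -m for m ∈ Icc 1 M, so by
sum_sigma_le the total is at most 2 * (36 M^2 * M^2 + M * 45 M^3) = 162 M^4.
-/

namespace Vale.Agent.H15.P054

theorem wset_mem_box_natAbs {p r : ℤ} (h : |p| ≤ |r|) : p ∈ box r.natAbs := by
  unfold box
  rw [Finset.mem_Icc, Int.natCast_natAbs]
  exact abs_le.mp h

theorem wset_subset (M : ℕ) (s : ℤ) :
    wset M s ⊆ ((box M).filter (fun r => r ≠ 0)).biUnion (fun r =>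
      (box r.natAbs).biUnion (fun p => (box r.natAbs).biUnion (fun q =>
        (fib M p q r s).image (fun t => ((p, q, r), t))))) := by
  intro t ht
  simp only [wset, Finset.mem_filter, Finset.mem_product] at ht
  obtain ⟨⟨⟨_, _, hr⟩, hxyz⟩, hr0, hpr, hqr, heq⟩ := ht
  rw [Finset.mem_biUnion]
  refine ⟨t.1.2.2, Finset.mem_filter.mpr ⟨hr, hr0⟩, ?_⟩
  rw [Finset.mem_biUnion]
  refine ⟨t.1.1, wset_mem_box_natAbs hpr, ?_⟩
  rw [Finset.mem_biUnion]
  refine ⟨t.1.2.1, wset_mem_box_natAbs hqr, ?_⟩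
  rw [Finset.mem_image]
  refine ⟨t.2, ?_, rfl⟩
  simp only [fib, Finset.mem_filter, Finset.mem_product]
  exact ⟨hxyz, heq⟩

theorem wset_sum_nonzero (M : ℕ) (g : ℕ → ℕ) :
    ∑ r ∈ (box M).filter (fun r => r ≠ 0), g r.natAbs ≤ 2 * ∑ m ∈ Finset.Icc 1 M, g m := by
  have hmaps : ∀ r ∈ (box M).filter (fun r => r ≠ 0), r.natAbs ∈ Finset.Icc 1 M := by
    intro r hr
    rw [Finset.mem_filter] at hr
    obtain ⟨hb, h0⟩ := hr
    unfold box at hb
    rw [Finset.mem_Icc] at hb
    rw [Finset.mem_Icc]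
    omega
  rw [← Finset.sum_fiberwise_of_maps_to (g := Int.natAbs) (t := Finset.Icc 1 M) hmaps,
    Finset.mul_sum]
  apply Finset.sum_le_sum
  intro m _
  have h1 : ∑ r ∈ ((box M).filter (fun r => r ≠ 0)).filter (fun r => r.natAbs = m), g r.natAbs
      = ∑ r ∈ ((box M).filter (fun r => r ≠ 0)).filter (fun r => r.natAbs = m), g m := by
    apply Finset.sum_congr rfl
    intro r hr
    rw [(Finset.mem_filter.mp hr).2]
  rw [h1, Finset.sum_const, smul_eq_mul]
  apply Nat.mul_le_mul_right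
  refine le_trans (Finset.card_le_card ?_) (Finset.card_le_two (a := (m : ℤ)) (b := -(m : ℤ)))
  intro r hr
  have h2 := (Finset.mem_filter.mp hr).2
  rw [Finset.mem_insert, Finset.mem_singleton]
  rcases Int.natAbs_eq r with h | h
  · left
    rw [← h2]
    exact h
  · right
    rw [← h2]
    exact h

theorem wset_card_le (M : ℕ) (hM : 1 ≤ M) (s : ℤ) :
    (wset M s).card ≤ 162 * M ^ 4 := by
  have hstep : ∀ r ∈ (box M).filter (fun r => r ≠ 0),
      ∑ p ∈ box r.natAbs, ∑ q ∈ box r.natAbs, (fib M p q r s).card ≤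
        36 * M ^ 2 * (∑ e ∈ r.natAbs.divisors, e) + 45 * M ^ 3 := by
    intro r hr
    rw [Finset.mem_filter] at hr
    obtain ⟨hb, h0⟩ := hr
    unfold box at hb
    rw [Finset.mem_Icc] at hb
    have hle : r.natAbs ≤ M := by omega
    refine le_trans (fib_sum_le M r s h0) ?_
    apply Nat.add_le_add_left
    have h1 : 4 * M + 1 ≤ 5 * M := by omega
    have h2 : 2 * r.natAbs + 1 ≤ 3 * M := by omega
    calc (4 * M + 1) * (2 * r.natAbs + 1) ^ 2 ≤ 5 * M * (3 * M) ^ 2 :=
          Nat.mul_le_mul h1 (Nat.pow_le_pow_left h2 2)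
      _ = 45 * M ^ 3 := by ring
  have hsig := sum_sigma_le M
  calc (wset M s).card
      ≤ (((box M).filter (fun r => r ≠ 0)).biUnion (fun r =>
          (box r.natAbs).biUnion (fun p => (box r.natAbs).biUnion (fun q =>
            (fib M p q r s).image (fun t => ((p, q, r), t)))))).card :=
        Finset.card_le_card (wset_subset M s)
    _ ≤ ∑ r ∈ (box M).filter (fun r => r ≠ 0),
          ∑ p ∈ box r.natAbs, ∑ q ∈ box r.natAbs, (fib M p q r s).card := by
        refine le_trans Finset.card_biUnion_le ?_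
        apply Finset.sum_le_sum
        intro r _
        refine le_trans Finset.card_biUnion_le ?_
        apply Finset.sum_le_sum
        intro p _
        refine le_trans Finset.card_biUnion_le ?_
        apply Finset.sum_le_sum
        intro q _
        exact Finset.card_image_le
    _ ≤ ∑ r ∈ (box M).filter (fun r => r ≠ 0),
          (36 * M ^ 2 * (∑ e ∈ r.natAbs.divisors, e) + 45 * M ^ 3) :=
        Finset.sum_le_sum hstep
    _ ≤ 2 * ∑ m ∈ Finset.Icc 1 M, (36 * M ^ 2 * (∑ e ∈ m.divisors, e) + 45 * M ^ 3) :=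
        wset_sum_nonzero M (fun m => 36 * M ^ 2 * (∑ e ∈ m.divisors, e) + 45 * M ^ 3)
    _ = 2 * (36 * M ^ 2 * (∑ m ∈ Finset.Icc 1 M, ∑ e ∈ m.divisors, e) + M * (45 * M ^ 3)) := by
        rw [Finset.sum_add_distrib, ← Finset.mul_sum, Finset.sum_const, smul_eq_mul,
          Nat.card_Icc, Nat.add_sub_cancel]
    _ ≤ 2 * (36 * M ^ 2 * M ^ 2 + M * (45 * M ^ 3)) :=
        Nat.mul_le_mul_left _ (Nat.add_le_add_right (Nat.mul_le_mul_left _ hsig) _)
    _ = 162 * M ^ 4 := by ring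

end Vale.Agent.H15.P054
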